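import Mathlib

namespace Vale.Agent.P269.CI2

open Finset

/-- Classical data of a smooth complete intersection `X` of dimension `r ≥ 3` in `ℙ^N` cut out by
equations of degrees `ds`. A basis `phi_a`, `a : Fin n`, of `H^*(X; ℂ)` is fixed, `phi_a` of Hodge
type `(p a, q a)`, `phi_e = 1`, `phi_h` the hyperplane class, `phi_a ∪ phi_b = ∑ x, cup a b x • phi_x`,
`η a b = ∫ phi_a ∪ phi_b`, `t = ∫ phi_h ∪ c_{r-1}(TX)`. Curve classes are the degrees `d : ℕ`, and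
`c_1(TX) = (N + 1 - ∑ ds) phi_h`. The last field is the Libgober-Wood identity. -/
structure Data (n : ℕ) where
  N : ℕ
  ds : List ℕ
  r : ℕ
  p : Fin n → ℕ
  q : Fin n → ℕ
  e : Fin n
  h : Fin n
  cup : Fin n → Matrix (Fin n) (Fin n) ℂ
  η : Matrix (Fin n) (Fin n) ℂ
  t : ℂ
  dim : r + ds.length = N ∧ 3 ≤ r
  e_type : p e = 0 ∧ q e = 0
  h_type : p h = 1 ∧ q h = 1
  other : ∀ a, a ≠ e → a ≠ h → 3 ≤ p a + q a
  cup_type : ∀ a b x, cup a b x ≠ 0 → p x = p a + p b ∧ q x = q a + q b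
  cup_one : cup e = 1
  cup_comm : ∀ a b x, cup a b x = (-1) ^ ((p a + q a) * (p b + q b)) * cup b a x
  cup_assoc : ∀ a b c y, ∑ x, cup a b x * cup x c y = ∑ x, cup b c x * cup a x y
  η_type : ∀ a b, η a b ≠ 0 → p a + p b = r ∧ q a + q b = r
  η_comm : ∀ a b, η a b = (-1) ^ ((p a + q a) * (p b + q b)) * η b a
  η_frob : ∀ a b c, ∑ x, cup a b x * η x c = ∑ x, cup b c x * η a x
  η_unit : IsUnit η
  wood : ∑ a, (-1) ^ (p a + q a) * ((p a : ℂ) - r / 2) ^ 2 =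
    r / 12 * ∑ a, (-1) ^ (p a + q a) + 1 / 6 * ((N : ℂ) + 1 - ds.sum) * t

variable {n : ℕ}

namespace Data

variable (X : Data n)

/-- `c_1(TX) = κ h`. -/
def κ : ℤ := X.N + 1 - X.ds.sum

/-- Virtual dimension of the moduli space of unpointed stable maps of genus `g` and degree `d`. -/
def vdim (g d : ℕ) : ℤ := (1 - g) * (X.r - 3) + X.κ * d

/-- Cup product with `c_1(TX)`. -/
noncomputable def R : Matrix (Fin n) (Fin n) ℂ := (X.κ : ℂ) • X.cup X.h

/-- The grading operator. -/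
noncomputable def μ (a : Fin n) : ℂ := X.p a - X.r / 2

/-- Parity of the insertion `τ_m(phi_a)`, written `(a, m)`. -/
def par (x : Fin n × ℕ) : ℕ := X.p x.1 + X.q x.1

/-- Euler characteristic. -/
noncomputable def χ : ℂ := ∑ a, (-1) ^ X.par (a, 0)

/-- Twice the complex degree of an insertion minus two: `2 (m + (p + q) / 2 - 1)`. -/
def wt (x : Fin n × ℕ) : ℤ := 2 * x.2 + X.par x - 2

/-- Pairs `(k, l)` with `1 ≤ k ≤ vdim g d` and all insertions in `l` of positive weight, the total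
weight being `2 (vdim g d - k)`. -/
def reducedSet (g d : ℕ) : Set (ℕ × List (Fin n × ℕ)) :=
  {s | 1 ≤ s.1 ∧ (s.1 : ℤ) ≤ X.vdim g d ∧ (∀ x ∈ s.2, 1 ≤ X.wt x) ∧
    (s.2.map X.wt).sum = 2 * (X.vdim g d - s.1)}

end Data

/-- The sum over the positions `j` of `l` of `T` applied to the `j`-th insertion. -/
def act (T : Fin n × ℕ → (Fin n × ℕ → ℂ) → ℂ) (l : List (Fin n × ℕ)) (f : List (Fin n × ℕ) → ℂ) : ℂ :=
  ∑ j : Fin l.length, T (l.get j) fun y => f (l.set j y)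

/-- Sum over all splittings of `l` into two sublists `I`, `J` of `± f I * g J`, with the Koszul
sign of the reordering of `l` into `I, J`: one has `split π [] f g = f [] * g []` and
`split π (x :: l) f g = split π l (fun I => f (x :: I)) g
  + split π l (fun I => (-1) ^ (π x * (I.map π).sum) * f I) (fun J => g (x :: J))`. -/
def split (π : Fin n × ℕ → ℕ) (l : List (Fin n × ℕ)) : (List (Fin n × ℕ) → ℂ) → (List (Fin n × ℕ) → ℂ) → ℂ :=
  l.foldr (fun x S f g => S (fun I => f (x :: I)) g +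
    S (fun I => (-1) ^ (π x * (I.map π).sum) * f I) fun J => g (x :: J)) fun f g => f [] * g []

/-- `τ_m(phi_b) ↦ τ_{m-1}(M phi_b)`, and `0` if `m = 0`. -/
def lower (M : Matrix (Fin n) (Fin n) ℂ) (x : Fin n × ℕ) (f : Fin n × ℕ → ℂ) : ℂ :=
  if x.2 = 0 then 0 else ∑ y, M x.1 y * f (y, x.2 - 1)

/-- `M a b` on the list `τ_0(phi_a), τ_0(phi_b)`, and `0` on every other list. -/
def two (M : Matrix (Fin n) (Fin n) ℂ) (l : List (Fin n × ℕ)) : ℂ :=
  ∑ a, ∑ b, if l = [(a, 0), (b, 0)] then M a b else 0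

/-- Getzler's `[x]^k_i` for `k + 1 = K`: the elementary symmetric polynomial of degree `K - i` in
`x, x + 1, …, x + K - 1`. -/
noncomputable def br (x : ℂ) (K i : ℕ) : ℂ :=
  (∏ j ∈ range K, (Polynomial.X + Polynomial.C (x + (j : ℂ)))).coeff i

/-- Descendant Gromov-Witten invariants of `X`: `F g d [(a₁, m₁), …, (a_k, m_k)]` is
`⟨τ_{m₁}(phi_{a₁}) ⋯ τ_{m_k}(phi_{a_k})⟩_{g, d}`. -/
structure GW (X : Data n) where
  F : ℕ → ℕ → List (Fin n × ℕ) → ℂ
  swap : ∀ g d l x y l', F g d (l ++ x :: y :: l') =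
    (-1) ^ (X.par x * X.par y) * F g d (l ++ y :: x :: l')
  unstable : ∀ g l, 2 * g + l.length < 3 → F g 0 l = 0
  dimension : ∀ g d l, F g d l ≠ 0 →
    (l.map fun x => (x.2 : ℤ) + X.p x.1).sum = X.vdim g d + l.length ∧
    (l.map fun x => (x.2 : ℤ) + X.q x.1).sum = X.vdim g d + l.length
  string : ∀ g d l, F g d ((X.e, 0) :: l) =
    act (lower 1) l (F g d) + if g = 0 ∧ d = 0 then two X.η l else 0
  dilaton : ∀ g d l, F g d ((X.e, 1) :: l) =
    (2 * g - 2 + l.length) * F g d l + if g = 1 ∧ d = 0 ∧ l = [] then X.χ / 24 else 0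
  divisor : ∀ g d l, F g d ((X.h, 0) :: l) =
    d * F g d l + act (lower (X.cup X.h)) l (F g d) +
    (if g = 0 ∧ d = 0 then two (X.cup X.h * X.η) l else 0) +
    if g = 1 ∧ d = 0 ∧ l = [] then -X.t / 24 else 0
  trr : ∀ d a m y z l, F 0 d ((a, m + 1) :: y :: z :: l) =
    ∑ v ∈ antidiagonal d, ∑ b, ∑ c, X.η⁻¹ b c * split X.par l
      (fun I => (-1) ^ ((X.par y + X.par z + X.par (c, 0)) * (I.map X.par).sum) *
        F 0 v.1 ((a, m) :: (b, 0) :: I)) fun J => F 0 v.2 ((c, 0) :: y :: z :: J)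

namespace GW

variable {X : Data n} (G : GW X)

/-- The coefficient of `Z⁻¹ ħ ∂_x ∂_y Z` at genus `g`, degree `d` and insertions `l`. -/
def quad (g d : ℕ) (x y : Fin n × ℕ) (l : List (Fin n × ℕ)) : ℂ :=
  (if g = 0 then 0 else G.F (g - 1) d (x :: y :: l)) +
  ∑ u ∈ antidiagonal g, ∑ v ∈ antidiagonal d,
    split X.par l (fun I => (-1) ^ (X.par y * (I.map X.par).sum) * G.F u.1 v.1 (x :: I))
      (fun J => G.F u.2 v.2 (y :: J))

/-- The coefficient of `Z⁻¹ L_{K-1} Z` at genus `g`, degree `d` and insertions `l`. -/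
noncomputable def vir (K g d : ℕ) (l : List (Fin n × ℕ)) : ℂ :=
  - ∑ i ∈ range (K + 1), br (X.μ X.e + 3 / 2) K i *
      ∑ b, (X.R ^ i) X.e b * G.F g d ((b, K - i) :: l)
  + act (fun x f => ∑ i ∈ range (K + 1), if i < x.2 + K then br (X.μ x.1 + x.2 + 1 / 2) K i *
      ∑ b, (X.R ^ i) x.1 b * f (b, x.2 + K - 1 - i) else 0) l (G.F g d)
  + 1 / 2 * ∑ m ∈ range K, ∑ k ∈ range K, ∑ i ∈ range K, (if m + k + i + 2 = K then
      (-1) ^ (m + 1) * ∑ a, ∑ b, br (-X.μ a - m - 1 / 2) K i * (X.η⁻¹ * X.R ^ i) a b *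
        G.quad g d (a, m) (b, k) l else 0)
  + (if g = 0 ∧ d = 0 then two (X.R ^ K * X.η) l else 0)
  + (if K = 1 ∧ g = 1 ∧ d = 0 ∧ l = [] then
      X.χ / 16 - (∑ a, (-1) ^ X.par (a, 0) * X.μ a ^ 2) / 4 else 0)

end GW

end Vale.Agent.P269.CI2
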